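import Vale.Agent.P284.H551.D.Prof
import Vale.Agent.P284.H468.Sub
import Mathlib.Analysis.Complex.Isometry
import Mathlib.MeasureTheory.Integral.CircleAverage
import Mathlib.MeasureTheory.Integral.Prod
import Mathlib.MeasureTheory.Measure.Haar.InnerProductSpace
import Mathlib.Analysis.Complex.CauchyIntegral

/-! # P284, project D (helper551): circular weights -/

open scoped Topology ContDiff
open Filter Set Metric MeasureTheory

noncomputable section

namespace Vale.Agent.P284.H551.D

variable {R : ℕ}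

/-- multiplication by a unit complex number preserves the volume -/
theorem rot (n : ℕ) {a : ℂ} (ha : ‖a‖ = 1) :
    MeasurePreserving (fun z : Fin n → ℂ => a • z) := by
  have h1 : MeasurePreserving (fun z : ℂ => a * z) := by
    have := (rotation ⟨a, by simpa [Submonoid.unitSphere] using ha⟩ : ℂ ≃ₗᵢ[ℝ] ℂ).measurePreserving
    exact this
  exact volume_preserving_pi fun _ : Fin n => h1

/-- circular weights: the integral against a circular weight is at least the circular lower
bound -/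
theorem circ_le {V g : (Fin R → ℂ) → ℝ} (hV : Continuous V) (hg : Continuous g)
    (hgc : HasCompactSupport g) (hg0 : ∀ z, 0 ≤ g z)
    (hrot : ∀ a : ℂ, ‖a‖ = 1 → ∀ z, g (a • z) = g z) {c : ℝ}
    (hm : ∀ z, c ≤ Real.circleAverage (fun ζ => V (ζ • z)) 0 1) :
    c * ∫ z, g z ≤ ∫ z, V z * g z := by
  have hpi : (0 : ℝ) < 2 * Real.pi := by positivity
  set ν : Measure ℝ := volume.restrict (Ioc 0 (2 * Real.pi)) with hν
  have hνfin : IsFiniteMeasure ν := ⟨by
    rw [hν, Measure.restrict_apply_univ, Real.volume_Ioc]; exact ENNReal.ofReal_lt_top⟩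
  have hnorm : ∀ θ : ℝ, ‖circleMap 0 1 θ‖ = 1 := by
    intro θ; simp
  -- joint integrability
  have hcont : Continuous fun q : (Fin R → ℂ) × ℝ => V (circleMap 0 1 q.2 • q.1) * g q.1 := by
    have h1 : Continuous fun q : (Fin R → ℂ) × ℝ => circleMap 0 1 q.2 • q.1 :=
      ((continuous_circleMap 0 1).comp continuous_snd).smul continuous_fst
    exact (hV.comp h1).mul (hg.comp continuous_fst)
  have hint : Integrable (fun q : (Fin R → ℂ) × ℝ => V (circleMap 0 1 q.2 • q.1) * g q.1)
      (volume.prod ν) := by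
    have h1 : (volume : Measure (Fin R → ℂ)).prod ν =
        ((volume : Measure (Fin R → ℂ)).prod (volume : Measure ℝ)).restrict
          (univ ×ˢ Ioc 0 (2 * Real.pi)) := by
      rw [hν, ← Measure.prod_restrict, Measure.restrict_univ]
    have h2 : IntegrableOn (fun q : (Fin R → ℂ) × ℝ => V (circleMap 0 1 q.2 • q.1) * g q.1)
        (tsupport g ×ˢ Icc 0 (2 * Real.pi)) (volume.prod volume) :=
      hcont.continuousOn.integrableOn_compact (hgc.isCompact.prod isCompact_Icc)
    rw [h1]
    refine IntegrableOn.of_forall_sdiff_eq_zero (h2.mono_set ?_ : IntegrableOn _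
      (tsupport g ×ˢ Ioc 0 (2 * Real.pi)) _) (MeasurableSet.univ.prod measurableSet_Ioc) ?_
    · exact prod_mono le_rfl Ioc_subset_Icc_self
    · rintro ⟨z, θ⟩ ⟨h3, h4⟩
      have h5 : z ∉ tsupport g := fun h => h4 ⟨h, h3.2⟩
      have h6 : g z = 0 := image_eq_zero_of_notMem_tsupport h5
      simp [h6]
  have hswap := integral_integral_swap (μ := (volume : Measure (Fin R → ℂ))) (ν := ν)
    (f := fun z θ => V (circleMap 0 1 θ • z) * g z) hint
  have hin : ∀ θ, ∫ z, V (circleMap 0 1 θ • z) * g z = ∫ z, V z * g z := by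
    intro θ
    have h1 := (rot R (hnorm θ)).integral_comp' (f := by
      exact (Homeomorph.smulOfNeZero (circleMap 0 1 θ) (by
        rw [← norm_ne_zero_iff, hnorm]; exact one_ne_zero)).toMeasurableEquiv)
      (fun z => V z * g z)
    rw [← h1]
    refine integral_congr_ae (Eventually.of_forall fun z => ?_)
    show V (circleMap 0 1 θ • z) * g z = V (circleMap 0 1 θ • z) * g (circleMap 0 1 θ • z)
    rw [hrot _ (hnorm θ)]
  have hlow : 2 * Real.pi * (c * ∫ z, g z) ≤
      ∫ z, ∫ θ, V (circleMap 0 1 θ • z) * g z ∂ν := by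
    rw [← integral_const_mul, ← integral_const_mul]
    have hgi : Integrable g := hg.integrable_of_hasCompactSupport hgc
    refine integral_mono ((hgi.const_mul _).const_mul _) hint.integral_prod_left fun z => ?_
    have h1 := hm z
    rw [Real.circleAverage_def, smul_eq_mul, intervalIntegral.integral_of_le hpi.le] at h1
    show 2 * Real.pi * (c * g z) ≤ ∫ θ, V (circleMap 0 1 θ • z) * g z ∂ν
    rw [integral_mul_const]
    have h2 : 2 * Real.pi * c ≤ ∫ θ, V (circleMap 0 1 θ • z) ∂ν := by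
      calc 2 * Real.pi * c ≤ 2 * Real.pi * ((2 * Real.pi)⁻¹ *
            ∫ θ in Ioc 0 (2 * Real.pi), V (circleMap 0 1 θ • z)) := by gcongr
        _ = _ := by rw [← mul_assoc, mul_inv_cancel₀ hpi.ne', one_mul]
    calc 2 * Real.pi * (c * g z) = (2 * Real.pi * c) * g z := by ring
      _ ≤ _ := mul_le_mul_of_nonneg_right h2 (hg0 z)
  rw [hswap] at hlow
  simp only [hin] at hlow
  rw [integral_const, smul_eq_mul] at hlow
  have hνr : ν.real univ = 2 * Real.pi := by
    rw [hν, measureReal_restrict_apply_univ]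
    simp [measureReal_def, Real.pi_pos.le]
  rw [hνr] at hlow
  exact le_of_mul_le_mul_left hlow hpi

/-- `|F|^{2α}` satisfies the sub-mean inequality on the circles around `0` -/
theorem nsq_rpow_le {m : ℕ} {F : (Fin R → ℂ) → (Fin m → ℂ)} (hF : Differentiable ℂ F) {α : ℝ}
    (hα : 0 < α) (z : Fin R → ℂ) :
    (nsq (F 0)) ^ α ≤ Real.circleAverage (fun ζ => (nsq (F (ζ • z))) ^ α) 0 1 := by
  have hcont : Continuous fun ζ : ℂ => (nsq (F (ζ • z))) ^ α := by
    have h1 : Continuous fun ζ : ℂ => nsq (F (ζ • z)) :=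
      continuous_nsq.comp (hF.continuous.comp (continuous_id.smul continuous_const))
    exact h1.rpow_const fun _ => Or.inr hα.le
  by_cases h0 : nsq (F 0) = 0
  · rw [h0, Real.zero_rpow hα.ne']
    exact Real.circleAverage_nonneg_of_nonneg fun t _ => Real.rpow_nonneg (nsq_nonneg _) _
  have hpos : 0 < nsq (F 0) := lt_of_le_of_ne (nsq_nonneg _) (Ne.symm h0)
  -- the scalar function `⟨F, F 0⟩`
  set G : ℂ → ℂ := fun ζ => ∑ a, (starRingEnd ℂ) (F 0 a) * F (ζ • z) a with hG
  have hGd : Differentiable ℂ G := by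
    intro ζ
    refine DifferentiableAt.fun_sum fun a _ => ?_
    have h1 : DifferentiableAt ℂ (fun ζ : ℂ => F (ζ • z)) ζ :=
      (hF _).comp ζ (differentiableAt_id.smul_const z)
    exact (differentiableAt_pi.1 h1 a).const_mul _
  have hG0 : ‖G 0‖ = nsq (F 0) := by
    have h1 : G 0 = ((nsq (F 0) : ℝ) : ℂ) := by
      simp only [hG, zero_smul, nsq, Complex.ofReal_sum]
      refine Finset.sum_congr rfl fun a _ => ?_
      rw [mul_comm, Complex.mul_conj, Complex.normSq_eq_norm_sq]
    rw [h1, Complex.norm_real, Real.norm_of_nonneg (nsq_nonneg _)]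
  have hGle : ∀ ζ, ‖G ζ‖ ^ 2 ≤ nsq (F 0) * nsq (F (ζ • z)) := by
    intro ζ
    have h1 : ‖G ζ‖ ≤ ∑ a, ‖F 0 a‖ * ‖F (ζ • z) a‖ := by
      refine (norm_sum_le _ _).trans (Finset.sum_le_sum fun a _ => ?_)
      rw [norm_mul, RCLike.norm_conj]
    calc ‖G ζ‖ ^ 2 ≤ (∑ a, ‖F 0 a‖ * ‖F (ζ • z) a‖) ^ 2 :=
          pow_le_pow_left₀ (norm_nonneg _) h1 2
      _ ≤ _ := Finset.sum_mul_sq_le_sq_mul_sq _ _ _
  have h1 := Vale.Agent.P284.H468.rpow_le_average (G := G) (ρ := 1) (p := 2 * α) one_pos
    (by positivity) ((hGd.differentiableOn.analyticOnNhd isOpen_univ).mono (subset_univ _))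
  have h2 : Real.circleAverage (fun t => ‖G t‖ ^ (2 * α)) 0 1 ≤
      Real.circleAverage (fun ζ => (nsq (F 0)) ^ α * (nsq (F (ζ • z))) ^ α) 0 1 := by
    refine Real.circleAverage_mono ?_ ?_ ?_
    · exact (hGd.continuous.norm.rpow_const fun _ => Or.inr (by positivity)).continuousOn.circleIntegrable'
    · exact (continuous_const.mul hcont).continuousOn.circleIntegrable'
    · intro ζ _
      rw [Real.rpow_mul (norm_nonneg _), ← Real.mul_rpow (nsq_nonneg _) (nsq_nonneg _)]
      refine Real.rpow_le_rpow (by positivity) ?_ hα.le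
      have := hGle ζ
      rwa [← Real.rpow_natCast] at this
  have h3 : Real.circleAverage (fun ζ => (nsq (F 0)) ^ α * (nsq (F (ζ • z))) ^ α) 0 1 =
      (nsq (F 0)) ^ α * Real.circleAverage (fun ζ => (nsq (F (ζ • z))) ^ α) 0 1 := by
    have := Real.circleAverage_fun_smul (a := (nsq (F 0)) ^ α) (f := fun ζ : ℂ => (nsq (F (ζ • z))) ^ α)
      (c := 0) (R := 1)
    simpa using this
  rw [hG0, Real.rpow_mul (nsq_nonneg _)] at h1
  have h4 : ((nsq (F 0)) ^ (2 : ℝ)) ^ α = (nsq (F 0)) ^ α * (nsq (F 0)) ^ α := by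
    rw [← Real.mul_rpow (nsq_nonneg _) (nsq_nonneg _)]
    congr 1
    rw [Real.rpow_two, sq]
  rw [h4] at h1
  have h5 := h1.trans h2
  rw [h3] at h5
  exact le_of_mul_le_mul_left h5 (Real.rpow_pos_of_pos hpos _)

end Vale.Agent.P284.H551.D
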