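import Vale.Agent.P284.H551.D.Circ
import Mathlib.MeasureTheory.Integral.IntervalIntegral.FundThmCalculus
import Mathlib.Analysis.Calculus.ParametricIntervalIntegral
import Mathlib.LinearAlgebra.Complex.FiniteDimensional
import Mathlib.MeasureTheory.Integral.DominatedConvergence

/-! # P284, project D (helper551): the test function of the final argument -/

open scoped Topology ContDiff Interval
open Filter Set Metric MeasureTheory

noncomputable section

namespace Vale.Agent.P284.H551.D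

variable {R : ℕ}

lemma norm_sq_le_nsq (z : Fin R → ℂ) : ‖z‖ ^ 2 ≤ nsq z := by
  have h1 : ‖z‖ ≤ Real.sqrt (nsq z) := by
    rw [pi_norm_le_iff_of_nonneg (Real.sqrt_nonneg _)]
    intro j
    refine Real.le_sqrt_of_sq_le ?_
    exact Finset.single_le_sum (f := fun j => ‖z j‖ ^ 2) (fun _ _ => by positivity)
      (Finset.mem_univ j)
  calc ‖z‖ ^ 2 ≤ (Real.sqrt (nsq z)) ^ 2 := pow_le_pow_left₀ (norm_nonneg _) h1 2
    _ = nsq z := Real.sq_sqrt (nsq_nonneg _)

lemma one_le_of {s : ℝ} (hs : 0 < s) {z : Fin R → ℂ} (hz : s ≤ ‖z‖) : 1 ≤ nsq z / s ^ 2 := by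
  rw [one_le_div (by positivity)]
  exact (pow_le_pow_left₀ hs.le hz 2).trans (norm_sq_le_nsq z)

lemma pk_out {k : ℕ} (hk : k ≠ 0) {s : ℝ} (hs : 0 < s) {z : Fin R → ℂ} (hz : s ≤ ‖z‖) :
    pk k (nsq z / s ^ 2) = 0 := pk_zero_of_le hk (one_le_of hs hz)

lemma hasCompactSupport_pk {k : ℕ} (hk : k ≠ 0) {s : ℝ} (hs : 0 < s) :
    HasCompactSupport fun z : Fin R → ℂ => pk k (nsq z / s ^ 2) := by
  refine HasCompactSupport.intro (isCompact_closedBall (0 : Fin R → ℂ) s) fun z hz => ?_
  rw [mem_closedBall, dist_zero_right, not_le] at hz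
  exact pk_out hk hs hz.le

lemma cont_pk (k : ℕ) (s : ℝ) : Continuous fun z : Fin R → ℂ => pk k (nsq z / s ^ 2) :=
  (continuous_pk k).comp (continuous_nsq.div_const _)

/-- Fubini with a parameter in an interval -/
lemma swapI {k : (Fin R → ℂ) → ℝ → ℝ} (hk : Continuous (Function.uncurry k)) {ρ r : ℝ}
    (hρr : ρ ≤ r) (hk0 : ∀ s ∈ Ioc ρ r, ∀ z : Fin R → ℂ, r < ‖z‖ → k z s = 0)
    {H : (Fin R → ℂ) → ℝ} (hH : LocallyIntegrable H) :
    (Integrable fun z => (∫ s in ρ..r, k z s) * H z) ∧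
    ∫ z, (∫ s in ρ..r, k z s) * H z = ∫ s in ρ..r, ∫ z, k z s * H z := by
  set ν : Measure ℝ := volume.restrict (Ioc ρ r) with hν
  have hνfin : IsFiniteMeasure ν := ⟨by
    rw [hν, Measure.restrict_apply_univ, Real.volume_Ioc]; exact ENNReal.ofReal_lt_top⟩
  obtain ⟨M, hM⟩ : ∃ M, ∀ q ∈ closedBall (0 : Fin R → ℂ) r ×ˢ Icc ρ r,
      ‖Function.uncurry k q‖ ≤ M :=
    ((isCompact_closedBall _ _).prod isCompact_Icc).exists_bound_of_continuousOn hk.continuousOn
  have hHi : Integrable ((closedBall (0 : Fin R → ℂ) r).indicator H) :=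
    (integrable_indicator_iff measurableSet_closedBall).2
      (hH.integrableOn_isCompact (isCompact_closedBall _ _))
  have hprod : (volume : Measure (Fin R → ℂ)).prod ν =
      ((volume : Measure (Fin R → ℂ)).prod (volume : Measure ℝ)).restrict (univ ×ˢ Ioc ρ r) := by
    rw [hν, ← Measure.prod_restrict, Measure.restrict_univ]
  have hint : Integrable (fun q : (Fin R → ℂ) × ℝ => k q.1 q.2 * H q.1) (volume.prod ν) := by
    have hb : Integrable (fun q : (Fin R → ℂ) × ℝ =>
        M * ‖(closedBall (0 : Fin R → ℂ) r).indicator H q.1‖) (volume.prod ν) :=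
      (hHi.norm.comp_fst ν).const_mul M
    refine hb.mono' ?_ ?_
    · exact hk.aestronglyMeasurable.mul hH.aestronglyMeasurable.comp_fst
    · rw [hprod]
      refine (ae_restrict_iff' (MeasurableSet.univ.prod measurableSet_Ioc)).2
        (Eventually.of_forall ?_)
      rintro ⟨z, s⟩ ⟨-, hs⟩
      by_cases hz : z ∈ closedBall (0 : Fin R → ℂ) r
      · have h1 := hM (z, s) ⟨hz, Ioc_subset_Icc_self hs⟩
        rw [norm_mul]
        simp only [indicator_of_mem hz]
        exact mul_le_mul_of_nonneg_right h1 (norm_nonneg _)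
      · have h1 : k z s = 0 := hk0 s hs z (by
          rw [mem_closedBall, dist_zero_right, not_le] at hz; exact hz)
        simp [h1, indicator_of_notMem hz]
  have e1 : ∀ z, (∫ s in ρ..r, k z s) * H z = ∫ s, k z s * H z ∂ν := by
    intro z
    rw [intervalIntegral.integral_of_le hρr, ← integral_mul_const]
  constructor
  · simp only [e1]
    exact hint.integral_prod_left
  · simp only [e1]
    rw [integral_integral_swap (μ := (volume : Measure (Fin R → ℂ))) (ν := ν)
      (f := fun z s => k z s * H z) hint, intervalIntegral.integral_of_le hρr]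

/-- the weight in the superposition of test functions -/
def ws (R : ℕ) (s : ℝ) : ℝ := s / s ^ (2 * R)

/-- the identity behind the superposition -/
lemma ftc {ρ r : ℝ} (hρ : 0 < ρ) (hρr : ρ ≤ r) (z : Fin R → ℂ) :
    ∫ s in ρ..r, ws R s * (gp s z - gm s z) =
      8 * ((r ^ (2 * R))⁻¹ * pk 3 (nsq z / r ^ 2)) - 8 * ((ρ ^ (2 * R))⁻¹ * pk 3 (nsq z / ρ ^ 2)) := by
  have hd : ∀ s ∈ [[ρ, r]], HasDerivAt (fun s : ℝ => 8 * ((s ^ (2 * R))⁻¹ * pk 3 (nsq z / s ^ 2)))
      (ws R s * (gp s z - gm s z)) s := by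
    intro s hs
    rw [uIcc_of_le hρr] at hs
    have hs0 : 0 < s := hρ.trans_le hs.1
    have h1 : HasDerivAt (fun s : ℝ => (s ^ (2 * R))⁻¹)
        (-(((2 * R : ℕ) : ℝ) * s ^ (2 * R - 1)) / (s ^ (2 * R)) ^ 2) s :=
      (hasDerivAt_pow (2 * R) s).fun_inv (by positivity)
    have h2 : HasDerivAt (fun s : ℝ => nsq z / s ^ 2) (nsq z * (-(2 * s) / (s ^ 2) ^ 2)) s := by
      have h3 : HasDerivAt (fun s : ℝ => (s ^ 2)⁻¹) (-(2 * s) / (s ^ 2) ^ 2) s := by
        have := (hasDerivAt_pow 2 s).fun_inv (by positivity)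
        simpa using this
      have h4 := h3.const_mul (nsq z)
      simpa [div_eq_mul_inv] using h4
    have h3 : HasDerivAt (fun s : ℝ => pk 3 (nsq z / s ^ 2))
        ((-((2 + 1 : ℕ) : ℝ) * pk 2 (nsq z / s ^ 2)) * (nsq z * (-(2 * s) / (s ^ 2) ^ 2))) s :=
      HasDerivAt.comp (h₂ := pk 3) s (hasDerivAt_pk 2 (by norm_num) (nsq z / s ^ 2)) h2
    have h4 := (h1.fun_mul h3).const_mul 8
    refine h4.congr_deriv ?_
    unfold ws gp gm
    rcases Nat.eq_zero_or_pos R with hR | hR
    · subst hR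
      simp only [mul_zero, pow_zero]
      push_cast
      field_simp
      ring
    · have h5 : s ^ (2 * R) = s ^ (2 * R - 1) * s := by
        rw [← pow_succ]; congr 1; omega
      rw [h5]
      push_cast
      have h6 : s ^ (2 * R - 1) ≠ 0 := by positivity
      field_simp
      ring
  have hcont : ContinuousOn (fun s : ℝ => ws R s * (gp s z - gm s z)) [[ρ, r]] := by
    rw [uIcc_of_le hρr]
    have hne : ∀ s ∈ Icc ρ r, s ≠ 0 := fun s hs => (hρ.trans_le hs.1).ne'
    have hne2 : ∀ s ∈ Icc ρ r, s ^ 2 ≠ 0 := fun s hs => pow_ne_zero _ (hne s hs)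
    have hq : ContinuousOn (fun s : ℝ => nsq z / s ^ 2) (Icc ρ r) :=
      continuousOn_const.div (by fun_prop) hne2
    have h2 : ∀ k, ContinuousOn (fun s : ℝ => pk k (nsq z / s ^ 2)) (Icc ρ r) := fun k =>
      (continuous_pk k).comp_continuousOn hq
    unfold ws gp gm
    refine ContinuousOn.mul ?_ (ContinuousOn.sub ?_ ?_)
    · exact continuousOn_id.div (by fun_prop) fun s hs => pow_ne_zero _ (hne s hs)
    · exact ((continuousOn_const.mul hq).mul (h2 2)).div (by fun_prop) hne2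
    · exact (continuousOn_const.mul (h2 3)).div (by fun_prop) hne2
  rw [intervalIntegral.integral_eq_sub_of_hasDerivAt hd hcont.intervalIntegrable]

end Vale.Agent.P284.H551.D
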