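import Vale.Agent.P284.H551.D.KO

/-! # P284, project D (helper551): the final argument for potentials of class `C²` -/

open scoped Topology ContDiff Interval
open Filter Set Metric MeasureTheory

noncomputable section

namespace Vale.Agent.P284.H551.D

variable {R : ℕ}

lemma contDiff_dir {V : (Fin R → ℂ) → ℝ} (hV : ContDiff ℝ 2 V) (v : Fin R → ℂ) :
    ContDiff ℝ 1 fun z => fderiv ℝ V z v := by
  have h1 : ContDiff ℝ 1 (fderiv ℝ V) := hV.fderiv_right (by norm_num)
  exact h1.clm_apply contDiff_const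

lemma continuous_D2 {V : (Fin R → ℂ) → ℝ} (hV : ContDiff ℝ 2 V) (v : Fin R → ℂ) :
    Continuous (D2 V v) := by
  unfold D2
  have h1 : Continuous (fderiv ℝ fun z => fderiv ℝ V z v) :=
    (contDiff_dir hV v).continuous_fderiv (by norm_num)
  exact h1.clm_apply continuous_const

lemma continuous_Lap {V : (Fin R → ℂ) → ℝ} (hV : ContDiff ℝ 2 V) : Continuous (Lap V) := by
  unfold Lap
  exact continuous_finsetSum _ fun j _ => (continuous_D2 hV _).add (continuous_D2 hV _)

lemma supp_dir {ψ : (Fin R → ℂ) → ℝ} (hc : HasCompactSupport ψ) (v : Fin R → ℂ) :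
    HasCompactSupport fun z => fderiv ℝ ψ z v := hc.fderiv_apply ℝ v

lemma supp_D2 {ψ : (Fin R → ℂ) → ℝ} (hc : HasCompactSupport ψ) (v : Fin R → ℂ) :
    HasCompactSupport (D2 ψ v) := supp_dir (supp_dir hc v) v

/-- one integration by parts -/
lemma ibp1 {ψ V : (Fin R → ℂ) → ℝ} (hψ : ContDiff ℝ 1 ψ) (hc : HasCompactSupport ψ)
    (hV : ContDiff ℝ 1 V) (v : Fin R → ℂ) :
    ∫ z, ψ z * fderiv ℝ V z v = - ∫ z, fderiv ℝ ψ z v * V z := by
  have hV' : Continuous fun z => fderiv ℝ V z v :=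
    (hV.continuous_fderiv (by norm_num)).clm_apply continuous_const
  have hψ' : Continuous fun z => fderiv ℝ ψ z v :=
    (hψ.continuous_fderiv (by norm_num)).clm_apply continuous_const
  refine integral_mul_fderiv_eq_neg_fderiv_mul_of_integrable ?_ ?_ ?_ ?_ ?_
  · exact (hψ'.mul hV.continuous).integrable_of_hasCompactSupport (supp_dir hc v).mul_right
  · exact (hψ.continuous.mul hV').integrable_of_hasCompactSupport hc.mul_right
  · exact (hψ.continuous.mul hV.continuous).integrable_of_hasCompactSupport hc.mul_right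
  · exact fun x _ => (hψ.differentiable (by norm_num)) x
  · exact fun x _ => (hV.differentiable (by norm_num)) x

/-- two integrations by parts -/
lemma ibp2 {ψ V : (Fin R → ℂ) → ℝ} (hψ : ContDiff ℝ 2 ψ) (hc : HasCompactSupport ψ)
    (hV : ContDiff ℝ 2 V) (v : Fin R → ℂ) :
    ∫ z, ψ z * D2 V v z = ∫ z, V z * D2 ψ v z := by
  have e1 := ibp1 (hψ.of_le (by norm_num)) hc (contDiff_dir hV v) v
  have e2 := ibp1 (contDiff_dir hψ v) (supp_dir hc v) (hV.of_le (by norm_num)) v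
  have e3 : ∫ z, ψ z * D2 V v z = ∫ z, fderiv ℝ (fun z => fderiv ℝ ψ z v) z v * V z := by
    rw [e2, neg_neg] at e1
    exact e1
  rw [e3]
  refine integral_congr_ae (Eventually.of_forall fun z => ?_)
  exact mul_comm _ _

/-- Green's identity for the Laplacian -/
lemma green {ψ V : (Fin R → ℂ) → ℝ} (hψ : ContDiff ℝ 2 ψ) (hc : HasCompactSupport ψ)
    (hV : ContDiff ℝ 2 V) : ∫ z, ψ z * Lap V z = ∫ z, V z * Lap ψ z := by
  have i1 : ∀ v : Fin R → ℂ, Integrable fun z => ψ z * D2 V v z := fun v =>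
    (hψ.continuous.mul (continuous_D2 hV v)).integrable_of_hasCompactSupport hc.mul_right
  have i2 : ∀ v : Fin R → ℂ, Integrable fun z => V z * D2 ψ v z := fun v =>
    (hV.continuous.mul (continuous_D2 hψ v)).integrable_of_hasCompactSupport
      (supp_D2 hc v).mul_left
  have j1 : ∀ j : Fin R, Integrable fun z =>
      ψ z * D2 V (Pi.single j 1) z + ψ z * D2 V (Pi.single j Complex.I) z := fun j =>
    (i1 _).add (i1 _)
  have j2 : ∀ j : Fin R, Integrable fun z =>
      V z * D2 ψ (Pi.single j 1) z + V z * D2 ψ (Pi.single j Complex.I) z := fun j =>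
    (i2 _).add (i2 _)
  unfold Lap
  simp only [Finset.mul_sum, mul_add]
  rw [integral_finsetSum _ fun j _ => j1 j, integral_finsetSum _ fun j _ => j2 j]
  refine Finset.sum_congr rfl fun j _ => ?_
  rw [integral_add (i1 _) (i1 _), integral_add (i2 _) (i2 _), ibp2 hψ hc hV, ibp2 hψ hc hV]

/-- **The final argument, `C²` version.** -/
theorem ko_end_c2 (hR : 0 < R) {m : ℕ} {F : (Fin R → ℂ) → (Fin m → ℂ)} (hF : Differentiable ℂ F)
    (hF0 : F 0 ≠ 0) {α c C ρ : ℝ} (hα : 0 < α) (hα1 : α ≤ 1) (hc : 0 < c) (hρ : 0 < ρ)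
    {V : ℕ → (Fin R → ℂ) → ℝ} (hV : ∀ i, ContDiff ℝ 2 (V i)) (hH0 : ∀ i z, 0 ≤ Lap (V i) z)
    (hup : ∀ i z, V i z ≤ C * (1 + Real.log (2 + nsq (F z))))
    (hlo : ∀ i, -C ≤ ∫ z, V i z * pk 3 (nsq z / ρ ^ 2))
    (hL : ∀ᵐ z, ∀ᶠ i in atTop, c * (nsq (F z)) ^ α ≤ Lap (V i) z) : False := by
  refine ko_end hR hF hF0 hα hα1 hc hρ (V := V) (H := fun i => Lap (V i))
    (fun i => (hV i).continuous.locallyIntegrable)
    (fun i => (continuous_Lap (hV i)).locallyIntegrable) hH0 ?_ hup hlo hL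
  intro i s hs
  exact green (contDiff_tf s) (hasCompactSupport_pk (by norm_num) (hρ.trans_le hs)) (hV i)

/-- **The final argument, `C²` version with a lower bound at one point.** -/
theorem ko_end_pt (hR : 0 < R) {m : ℕ} {F : (Fin R → ℂ) → (Fin m → ℂ)} (hF : Differentiable ℂ F)
    (hF0 : F 0 ≠ 0) {α c C : ℝ} (hα : 0 < α) (hα1 : α ≤ 1) (hc : 0 < c)
    {V : ℕ → (Fin R → ℂ) → ℝ} (hV : ∀ i, ContDiff ℝ 2 (V i)) (hH0 : ∀ i z, 0 ≤ Lap (V i) z)
    (hm : ∀ i z, V i 0 ≤ Real.circleAverage (fun ζ : ℂ => V i (ζ • z)) 0 1)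
    (hup : ∀ i z, V i z ≤ C * (1 + Real.log (2 + nsq (F z))))
    (hlo : ∀ i, -C ≤ V i 0)
    (hL : ∀ᵐ z, ∀ᶠ i in atTop, c * (nsq (F z)) ^ α ≤ Lap (V i) z) : False := by
  set g : (Fin R → ℂ) → ℝ := fun z => pk 3 (nsq z / 1 ^ 2) with hg
  have hgc : Continuous g := cont_pk 3 1
  have hgs : HasCompactSupport g := hasCompactSupport_pk (by norm_num) one_pos
  have hg0 : ∀ z, 0 ≤ g z := fun z => pk_nonneg _ _
  set G : ℝ := ∫ z, g z with hG
  have hG0 : 0 ≤ G := integral_nonneg hg0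
  have hrot : ∀ a : ℂ, ‖a‖ = 1 → ∀ z, g (a • z) = g z := by
    intro a ha z
    rw [hg]
    simp only [nsq_smul, ha, one_pow, one_mul]
  set C' : ℝ := |C| * (1 + G) with hC'
  have hCC' : C ≤ C' := by
    have h1 : |C| ≤ |C| * (1 + G) := le_mul_of_one_le_right (abs_nonneg C) (by linarith)
    exact (le_abs_self C).trans h1
  refine ko_end_c2 hR hF hF0 hα hα1 hc one_pos (C := C') hV hH0 ?_ ?_ hL
  · intro i z
    refine (hup i z).trans (mul_le_mul_of_nonneg_right hCC' ?_)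
    have := Real.log_nonneg (by linarith [nsq_nonneg (F z)] : (1 : ℝ) ≤ 2 + nsq (F z))
    linarith
  · intro i
    have h1 := circ_le (V := V i) (g := g) (hV i).continuous hgc hgs hg0 hrot (c := V i 0)
      (fun z => hm i z)
    have h2 : -C' ≤ V i 0 * G := by
      have h3 : -|C| ≤ V i 0 := (neg_le_neg (le_abs_self C)).trans (hlo i)
      have h4 : -|C| * G ≤ V i 0 * G := mul_le_mul_of_nonneg_right h3 hG0
      have h5 : -C' ≤ -|C| * G := by
        rw [hC']
        have := abs_nonneg C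
        nlinarith
      linarith
    exact h2.trans h1

end Vale.Agent.P284.H551.D
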