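import Mathlib.Analysis.Calculus.LineDeriv.IntegrationByParts
import Mathlib.Analysis.Complex.Basic
import Mathlib.Analysis.Calculus.ContDiff.Deriv
import Mathlib.Analysis.SpecialFunctions.Pow.Deriv
import Mathlib.MeasureTheory.Measure.Lebesgue.EqHaar
import Mathlib.MeasureTheory.Measure.Haar.NormedSpace
import Mathlib.MeasureTheory.Measure.Haar.OfBasis
import Mathlib.MeasureTheory.Measure.Lebesgue.Complex

/-! # P284, project D (helper551): the test function `(1 - |z|²/r²)⁴₊` on `ℂᴿ`. -/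

open scoped Topology ContDiff
open Filter Set Metric MeasureTheory

noncomputable section

namespace Vale.Agent.P284.H551.D

/-- the profile `(1 - t)₊` to the power `k` -/
def pk (k : ℕ) (t : ℝ) : ℝ := (max (1 - t) 0) ^ k

lemma pk_nonneg (k : ℕ) (t : ℝ) : 0 ≤ pk k t := pow_nonneg (le_max_right _ _) _

lemma pk_zero_of_le {k : ℕ} (hk : k ≠ 0) {t : ℝ} (ht : 1 ≤ t) : pk k t = 0 := by
  unfold pk
  rw [max_eq_right (by linarith), zero_pow hk]

lemma continuous_pk (k : ℕ) : Continuous (pk k) := by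
  unfold pk
  fun_prop

lemma hasDerivAt_pk (k : ℕ) (hk : 1 ≤ k) (t : ℝ) :
    HasDerivAt (pk (k + 1)) (-((k + 1 : ℕ) : ℝ) * pk k t) t := by
  rcases lt_trichotomy t 1 with h | h | h
  · have h1 : HasDerivAt (fun s : ℝ => (1 - s) ^ (k + 1))
        (((k + 1 : ℕ) : ℝ) * (1 - t) ^ k * (-1)) t := by
      have := ((hasDerivAt_id' t).const_sub 1).fun_pow (k + 1)
      simpa using this
    have h2 : pk (k + 1) =ᶠ[𝓝 t] fun s : ℝ => (1 - s) ^ (k + 1) := by
      filter_upwards [Iio_mem_nhds h] with s hs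
      unfold pk
      rw [max_eq_left (by have : s < 1 := hs; linarith)]
    have h3 : -((k + 1 : ℕ) : ℝ) * pk k t = ((k + 1 : ℕ) : ℝ) * (1 - t) ^ k * (-1) := by
      unfold pk
      rw [max_eq_left (by linarith)]
      ring
    rw [h3]
    exact h1.congr_of_eventuallyEq h2
  · subst h
    have h0 : pk k 1 = 0 := pk_zero_of_le (by omega) le_rfl
    have h0' : pk (k + 1) 1 = 0 := pk_zero_of_le (by omega) le_rfl
    rw [h0, mul_zero, hasDerivAt_iff_isLittleO]
    simp only [h0', smul_zero, sub_zero]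
    have h1 : (fun s : ℝ => pk (k + 1) s) =O[𝓝 1] fun s : ℝ => (s - 1) ^ (k + 1) := by
      refine Asymptotics.IsBigO.of_bound 1 (Eventually.of_forall fun s => ?_)
      rw [one_mul, norm_pow, Real.norm_eq_abs, Real.norm_eq_abs, abs_of_nonneg (pk_nonneg _ _)]
      unfold pk
      refine pow_le_pow_left₀ (le_max_right _ _) ?_ _
      refine max_le ?_ (abs_nonneg _)
      rw [abs_sub_comm]
      exact le_abs_self _
    refine h1.trans_isLittleO ?_
    have h2 : (fun s : ℝ => (s - 1) ^ (k + 1)) = fun s : ℝ => (s - 1) ^ k * (s - 1) := by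
      ext s; ring
    rw [h2]
    have h3 : Tendsto (fun s : ℝ => (s - 1) ^ k) (𝓝 1) (𝓝 0) := by
      have : ContinuousAt (fun s : ℝ => (s - 1) ^ k) 1 := by fun_prop
      have h4 := this.tendsto
      simpa [zero_pow (show k ≠ 0 by omega)] using h4
    have h5 : (fun s : ℝ => (s - 1) ^ k) =o[𝓝 1] fun _ : ℝ => (1 : ℝ) :=
      (Asymptotics.isLittleO_one_iff ℝ).2 h3
    have h6 := h5.mul_isBigO (Asymptotics.isBigO_refl (fun s : ℝ => s - 1) (𝓝 1))
    simpa using h6
  · have h2 : pk (k + 1) =ᶠ[𝓝 t] fun _ : ℝ => (0 : ℝ) := by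
      filter_upwards [Ioi_mem_nhds h] with s hs
      exact pk_zero_of_le (by omega) (le_of_lt hs)
    have h3 : -((k + 1 : ℕ) : ℝ) * pk k t = 0 := by
      rw [pk_zero_of_le (by omega) h.le, mul_zero]
    rw [h3]
    exact (hasDerivAt_const t (0 : ℝ)).congr_of_eventuallyEq h2

lemma deriv_pk (k : ℕ) (hk : 1 ≤ k) :
    deriv (pk (k + 1)) = fun t => -((k + 1 : ℕ) : ℝ) * pk k t :=
  funext fun t => (hasDerivAt_pk k hk t).deriv

lemma contDiff_pk3 : ContDiff ℝ 1 (pk 3) := by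
  rw [contDiff_one_iff_deriv]
  refine ⟨fun t => (hasDerivAt_pk 2 (by norm_num) t).differentiableAt, ?_⟩
  rw [deriv_pk 2 (by norm_num)]
  exact continuous_const.mul (continuous_pk 2)

lemma contDiff_pk4 : ContDiff ℝ 2 (pk 4) := by
  have h : ContDiff ℝ (1 + 1) (pk 4) := by
    rw [contDiff_succ_iff_deriv]
    refine ⟨fun t => (hasDerivAt_pk 3 (by norm_num) t).differentiableAt, by simp, ?_⟩
    rw [deriv_pk 3 (by norm_num)]
    exact contDiff_const.mul contDiff_pk3
  have h2 : ((1 : ℕ∞ω) + 1) = 2 := by norm_num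
  rwa [h2] at h

variable {R : ℕ}

/-- `|z|²` -/
def nsq {m : ℕ} (z : Fin m → ℂ) : ℝ := ∑ j, ‖z j‖ ^ 2

lemma nsq_nonneg {m : ℕ} (z : Fin m → ℂ) : 0 ≤ nsq z := Finset.sum_nonneg fun _ _ => by positivity

lemma continuous_nsq {m : ℕ} : Continuous (nsq (m := m)) := by
  unfold nsq
  fun_prop

lemma nsq_smul {m : ℕ} (a : ℂ) (z : Fin m → ℂ) : nsq (a • z) = ‖a‖ ^ 2 * nsq z := by
  unfold nsq
  simp only [Pi.smul_apply, smul_eq_mul, norm_mul, mul_pow, ← Finset.mul_sum]

lemma nsq_eq {m : ℕ} (z : Fin m → ℂ) : nsq z = ∑ j, ((z j).re ^ 2 + (z j).im ^ 2) := by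
  unfold nsq
  refine Finset.sum_congr rfl fun j _ => ?_
  rw [← Complex.normSq_eq_norm_sq, Complex.normSq_apply]
  ring

/-- the second derivative in the direction `v` -/
def D2 (V : (Fin R → ℂ) → ℝ) (v z : Fin R → ℂ) : ℝ := fderiv ℝ (fun x => fderiv ℝ V x v) z v

/-- the (real) Laplacian on `ℂᴿ` -/
def Lap (V : (Fin R → ℂ) → ℝ) (z : Fin R → ℂ) : ℝ :=
  ∑ j, (D2 V (Pi.single j 1) z + D2 V (Pi.single j Complex.I) z)

/-- the derivative of `|z|²` in the direction `v` -/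
def dq (v z : Fin R → ℂ) : ℝ := ∑ j, (2 * (z j).re * (v j).re + 2 * (z j).im * (v j).im)

lemma hasFDerivAt_nsq (z : Fin R → ℂ) :
    ∃ L : (Fin R → ℂ) →L[ℝ] ℝ, HasFDerivAt (nsq (m := R)) L z ∧ ∀ v, L v = dq v z := by
  have h1 : ∀ j : Fin R, HasFDerivAt (fun x : Fin R → ℂ => (x j).re ^ 2 + (x j).im ^ 2)
      ((2 * (z j).re) • (Complex.reCLM.comp (ContinuousLinearMap.proj j)) +
        (2 * (z j).im) • (Complex.imCLM.comp (ContinuousLinearMap.proj j))) z := by
    intro j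
    have hr : HasFDerivAt (fun x : Fin R → ℂ => (x j).re)
        (Complex.reCLM.comp (ContinuousLinearMap.proj (R := ℝ) (φ := fun _ : Fin R => ℂ) j)) z :=
      (Complex.reCLM.comp (ContinuousLinearMap.proj (R := ℝ) (φ := fun _ : Fin R => ℂ) j)).hasFDerivAt
    have hi : HasFDerivAt (fun x : Fin R → ℂ => (x j).im)
        (Complex.imCLM.comp (ContinuousLinearMap.proj (R := ℝ) (φ := fun _ : Fin R => ℂ) j)) z :=
      (Complex.imCLM.comp (ContinuousLinearMap.proj (R := ℝ) (φ := fun _ : Fin R => ℂ) j)).hasFDerivAt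
    have h2 := (hr.fun_mul hr).fun_add (hi.fun_mul hi)
    have e1 : (fun x : Fin R → ℂ => (x j).re ^ 2 + (x j).im ^ 2) =
        fun x => (x j).re * (x j).re + (x j).im * (x j).im := by ext x; ring
    rw [e1]
    rw [two_mul, two_mul, add_smul, add_smul]
    exact h2
  refine ⟨∑ j : Fin R, ((2 * (z j).re) • (Complex.reCLM.comp (ContinuousLinearMap.proj j)) +
        (2 * (z j).im) • (Complex.imCLM.comp (ContinuousLinearMap.proj j))), ?_, ?_⟩
  · have h2 := HasFDerivAt.fun_sum (u := Finset.univ) fun (j : Fin R) _ => h1 j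
    have h3 : (nsq (m := R)) = fun x => ∑ j, ((x j).re ^ 2 + (x j).im ^ 2) := funext fun x => nsq_eq x
    rw [h3]
    exact h2
  · intro v
    simp [dq]

lemma fderiv_nsq (z v : Fin R → ℂ) : fderiv ℝ (nsq (m := R)) z v = dq v z := by
  obtain ⟨L, hL, h⟩ := hasFDerivAt_nsq z
  rw [hL.fderiv, h]

lemma differentiable_nsq : Differentiable ℝ (nsq (m := R)) := fun z =>
  (hasFDerivAt_nsq z).choose_spec.1.differentiableAt

lemma contDiff_nsq : ContDiff ℝ 2 (nsq (m := R)) := by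
  have h3 : (nsq (m := R)) = fun x => ∑ j, ((x j).re ^ 2 + (x j).im ^ 2) := funext fun x => nsq_eq x
  rw [h3]
  refine ContDiff.sum fun j _ => ?_
  have hr : ContDiff ℝ 2 (fun x : Fin R → ℂ => (x j).re) :=
    (Complex.reCLM.comp (ContinuousLinearMap.proj (R := ℝ) (φ := fun _ : Fin R => ℂ) j)).contDiff
  have hi : ContDiff ℝ 2 (fun x : Fin R → ℂ => (x j).im) :=
    (Complex.imCLM.comp (ContinuousLinearMap.proj (R := ℝ) (φ := fun _ : Fin R => ℂ) j)).contDiff
  exact (hr.pow 2).add (hi.pow 2)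

lemma fderiv_dq (v z : Fin R → ℂ) : fderiv ℝ (dq v) z v = 2 * nsq v := by
  have h1 : IsLinearMap ℝ (dq v) := by
    constructor
    · intro x y
      simp only [dq, Pi.add_apply, Complex.add_re, Complex.add_im, ← Finset.sum_add_distrib]
      refine Finset.sum_congr rfl fun j _ => by ring
    · intro a x
      simp only [dq, Pi.smul_apply, Complex.real_smul, Complex.mul_re, Complex.ofReal_re,
        Complex.ofReal_im, Complex.mul_im, zero_mul, sub_zero, add_zero, smul_eq_mul, Finset.mul_sum]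
      refine Finset.sum_congr rfl fun j _ => by ring
  have h2 : fderiv ℝ (dq v) z = LinearMap.toContinuousLinearMap (h1.mk' (dq v)) :=
    (LinearMap.toContinuousLinearMap (h1.mk' (dq v))).fderiv
  rw [h2]
  show dq v v = _
  rw [nsq_eq, dq, Finset.mul_sum]
  refine Finset.sum_congr rfl fun j _ => by ring

lemma differentiable_dq (v : Fin R → ℂ) : Differentiable ℝ (dq v) := by
  unfold dq
  intro z
  refine DifferentiableAt.fun_sum fun j _ => ?_
  have hr : DifferentiableAt ℝ (fun x : Fin R → ℂ => (x j).re) z :=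
    (Complex.reCLM.comp
      (ContinuousLinearMap.proj (R := ℝ) (φ := fun _ : Fin R => ℂ) j)).differentiableAt
  have hi : DifferentiableAt ℝ (fun x : Fin R → ℂ => (x j).im) z :=
    (Complex.imCLM.comp
      (ContinuousLinearMap.proj (R := ℝ) (φ := fun _ : Fin R => ℂ) j)).differentiableAt
  exact ((hr.const_mul 2).mul_const _).add ((hi.const_mul 2).mul_const _)

/-- the test function -/
def tf (r : ℝ) (z : Fin R → ℂ) : ℝ := pk 4 (nsq z / r ^ 2)

lemma tf_nonneg (r : ℝ) (z : Fin R → ℂ) : 0 ≤ tf r z := pk_nonneg _ _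

lemma contDiff_tf (r : ℝ) : ContDiff ℝ 2 (tf (R := R) r) :=
  contDiff_pk4.comp (contDiff_nsq.div_const _)

lemma fderiv_tf (r : ℝ) (z v : Fin R → ℂ) :
    fderiv ℝ (tf r) z v = -4 * pk 3 (nsq z / r ^ 2) * (dq v z / r ^ 2) := by
  have h1 := hasDerivAt_pk 3 (by norm_num) (nsq z / r ^ 2)
  obtain ⟨L, hL, h⟩ := hasFDerivAt_nsq z
  have h2 : HasFDerivAt (fun x : Fin R → ℂ => nsq x / r ^ 2) ((r ^ 2)⁻¹ • L) z := by
    have := hL.const_mul (r ^ 2)⁻¹
    simpa [div_eq_inv_mul] using this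
  have h3 := h1.comp_hasFDerivAt z h2
  have h4 : HasFDerivAt (tf r) ((-((3 + 1 : ℕ) : ℝ) * pk 3 (nsq z / r ^ 2)) • ((r ^ 2)⁻¹ • L)) z :=
    h3
  rw [h4.fderiv]
  simp only [smul_apply, smul_eq_mul, h]
  push_cast
  ring

lemma D2_tf (r : ℝ) (v z : Fin R → ℂ) :
    D2 (tf r) v z = 12 * pk 2 (nsq z / r ^ 2) * (dq v z / r ^ 2) ^ 2 -
      4 * pk 3 (nsq z / r ^ 2) * (2 * nsq v / r ^ 2) := by
  unfold D2
  have h0 : (fun x => fderiv ℝ (tf r) x v) =
      fun x => -4 * pk 3 (nsq x / r ^ 2) * (dq v x / r ^ 2) := funext fun x => fderiv_tf r x v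
  rw [h0]
  have h1 := hasDerivAt_pk 2 (by norm_num) (nsq z / r ^ 2)
  obtain ⟨L, hL, h⟩ := hasFDerivAt_nsq z
  have h2 : HasFDerivAt (fun x : Fin R → ℂ => nsq x / r ^ 2) ((r ^ 2)⁻¹ • L) z := by
    have := hL.const_mul (r ^ 2)⁻¹
    simpa [div_eq_inv_mul] using this
  have h3 : HasFDerivAt (fun x : Fin R → ℂ => pk 3 (nsq x / r ^ 2))
      ((-((2 + 1 : ℕ) : ℝ) * pk 2 (nsq z / r ^ 2)) • ((r ^ 2)⁻¹ • L)) z :=
    HasDerivAt.comp_hasFDerivAt (h₂ := pk 3) z h1 h2
  have h4 : HasFDerivAt (fun x : Fin R → ℂ => dq v x / r ^ 2) ((r ^ 2)⁻¹ • fderiv ℝ (dq v) z) z := by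
    have := (differentiable_dq v z).hasFDerivAt.const_mul (r ^ 2)⁻¹
    simpa [div_eq_inv_mul] using this
  have h5 := (h3.const_mul (-4)).fun_mul h4
  rw [h5.fderiv]
  simp only [add_apply, smul_apply, smul_eq_mul, h,
    fderiv_dq]
  push_cast
  ring

lemma dq_sum (z : Fin R → ℂ) :
    ∑ j, ((dq (Pi.single j 1) z) ^ 2 + (dq (Pi.single j Complex.I) z) ^ 2) = 4 * nsq z := by
  have h1 : ∀ j, dq (Pi.single j 1) z = 2 * (z j).re := by
    intro j
    unfold dq
    rw [Finset.sum_eq_single j]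
    · simp
    · intro b _ hb
      simp [Pi.single_eq_of_ne hb]
    · intro h; exact absurd (Finset.mem_univ _) h
  have h2 : ∀ j, dq (Pi.single j Complex.I) z = 2 * (z j).im := by
    intro j
    unfold dq
    rw [Finset.sum_eq_single j]
    · simp
    · intro b _ hb
      simp [Pi.single_eq_of_ne hb]
    · intro h; exact absurd (Finset.mem_univ _) h
  rw [nsq_eq, Finset.mul_sum]
  refine Finset.sum_congr rfl fun j _ => ?_
  rw [h1, h2]
  ring

lemma nsq_single (j : Fin R) (a : ℂ) : nsq (Pi.single j a : Fin R → ℂ) = ‖a‖ ^ 2 := by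
  unfold nsq
  rw [Finset.sum_eq_single j]
  · simp
  · intro b _ hb
    simp [Pi.single_eq_of_ne hb]
  · intro h; exact absurd (Finset.mem_univ _) h

/-- the positive part of the Laplacian of the test function -/
def gp (r : ℝ) (z : Fin R → ℂ) : ℝ := 48 * (nsq z / r ^ 2) * pk 2 (nsq z / r ^ 2) / r ^ 2

/-- the negative part of the Laplacian of the test function -/
def gm (r : ℝ) (z : Fin R → ℂ) : ℝ := 16 * R * pk 3 (nsq z / r ^ 2) / r ^ 2

lemma Lap_tf (r : ℝ) (hr : r ≠ 0) (z : Fin R → ℂ) : Lap (tf r) z = gp r z - gm r z := by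
  unfold Lap
  simp only [D2_tf, nsq_single, norm_one, Complex.norm_I]
  have h1 : ∀ j : Fin R, (12 * pk 2 (nsq z / r ^ 2) * (dq (Pi.single j 1) z / r ^ 2) ^ 2 -
      4 * pk 3 (nsq z / r ^ 2) * (2 * 1 ^ 2 / r ^ 2) +
      (12 * pk 2 (nsq z / r ^ 2) * (dq (Pi.single j Complex.I) z / r ^ 2) ^ 2 -
      4 * pk 3 (nsq z / r ^ 2) * (2 * 1 ^ 2 / r ^ 2))) =
      12 * pk 2 (nsq z / r ^ 2) / r ^ 4 *
        ((dq (Pi.single j 1) z) ^ 2 + (dq (Pi.single j Complex.I) z) ^ 2) -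
      16 * pk 3 (nsq z / r ^ 2) / r ^ 2 := by
    intro j
    field_simp
    ring
  rw [Finset.sum_congr rfl fun j _ => h1 j, Finset.sum_sub_distrib, ← Finset.mul_sum, dq_sum]
  simp only [Finset.sum_const, Finset.card_univ, Fintype.card_fin, nsmul_eq_mul, gp, gm]
  field_simp
  ring

end Vale.Agent.P284.H551.D
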